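import Crest.Agent.X262.Gfm18.Base
import Crest.Agent.X262.Sark.Defs
import Crest.Agent.X262.FG.Prm0
import Crest.Agent.X277.Unf.Main

/-!
# Row 262, GFM (helper18), part 1: Mori fibre spaces and the volume bound

* `le_kP`, `eqOn_kP`         : `κ ≤ r K_P` on a smooth model;
* `isMod_anti`, `prm_anti`   : `l A - q κ` is a polarisation of a model with the primes of `Y`;
* `VolM n C`                 : the volume bound for Mori fibre spaces of relative dimension `≥ 2`;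
* `Vol12 n C`, `volM_of_12`  : the form of helper12 implies it.
-/

set_option autoImplicit false
set_option linter.unusedSectionVars false

open scoped KaehlerDifferential

noncomputable section

namespace Crest.Agent.X262.Gfm

open Crest.Agent.X277 Crest.Agent.X277.Lef Crest.Agent.X277.BD Crest.Agent.X277.Pst
open Crest.Agent.X277.BD.Br (On oP kP)
open Crest.Agent.X262.Mod Crest.Agent.X262.Loc Crest.Agent.X262.Sark
open Crest.Agent.X262.FG.Prm5 (isMod_oP car_of_on)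
open List (replicate)

variable {K : Type} [Field K] [Algebra ℂ K] {n : ℕ} {b : Module.Basis (Fin n) K Ω[K⁄ℂ]}

theorem leOn_kP (Y : TM b) (W : PModel ℂ K) : LeOn (oP W) Y.κ (Y.r • kP W b) := fun V hV => by
  by_cases h : Prm Y.H V
  · exact (Y.κ_eq W V hV h).le
  · exact (Y.κ_lt W V hV h).le

theorem kLe (Y : TM b) : KLe b Y.r Y.κ := leOn_kP Y

theorem eqOn_kP (Y : TM b) {W : PModel ℂ K} (hH : Y.H ∈ On W) :
    EqOn Y.H Y.κ (Y.r • kP W b) := fun V hV => Y.κ_eq W V ((car_of_on hH).prm hV) hV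

/-- `l A - q κ` is a polarisation -/
theorem isMod_anti (Y : MFS b) {q l : ℕ} (h : (l • Y.A - q • Y.κ - Y.H).Free) :
    IsMod (l • Y.A - q • Y.κ) := by
  have h1 := Y.mod.add h
  rwa [add_sub_cancel] at h1

theorem car_anti (Y : MFS b) (q l : ℕ) : Car Y.H (l • Y.A - q • Y.κ) :=
  (Y.A_car.nsmul l).sub (Y.car.nsmul q)

theorem car_anti' (Y : MFS b) {q l : ℕ} (h : (l • Y.A - q • Y.κ - Y.H).Free) :
    Car (l • Y.A - q • Y.κ) Y.H :=
  car_of_free (isMod_anti Y h).free Y.mod.free (n := 1) (by rwa [one_nsmul])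

theorem prm_anti (Y : MFS b) {q l : ℕ} (h : (l • Y.A - q • Y.κ - Y.H).Free) (V : RZ ℂ K) :
    Prm (l • Y.A - q • Y.κ) V ↔ Prm Y.H V :=
  ⟨(car_anti Y q l).prm, (car_anti' Y h).prm⟩

/-- on the fibres of a fibration over the base, `c A - t κ` is `t` times `-κ` -/
theorem lin_up_anti {A κ : BD ℂ K} (hA : A.Free) {M : IntermediateField ℂ K} (hM : cf A ≤ M)
    (c t : ℕ) : Lin (up M (c • A - t • κ)) (t • up M (-κ)) := by
  have h := ((lin_up_of_free hA hM).nsmul c).add (Lin.rfl (a := t • up M (-κ)))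
  rw [smul_zero, zero_add] at h
  rwa [sub_eq_add_neg, ← smul_neg, map_add, map_nsmul, map_nsmul]

variable [Algebra.EssFiniteType ℂ K]

theorem le_kP (Y : TM b) {W : PModel ℂ K} (hκ : Y.κ ∈ On W) : Y.κ ≤ Y.r • kP W b :=
  ((car_of_on (Br.kP_mem b)).nsmul _).le (isMod_oP W) (car_of_on hκ) (leOn_kP Y W)

theorem bnum_rep_lin' {k F : Type} [Field k] [Field F] [Algebra k F] [CharZero k]
    [Algebra.EssFiniteType k F] {a a' : BD k F} (e : Lin a a') (i : ℕ) :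
    bnum (replicate i a) = bnum (replicate i a') := by
  simpa using bnum_rep_lin e i []

theorem bnum_up_anti {A κ : BD ℂ K} (hA : A.Free) {M : IntermediateField ℂ K} (hM : cf A ≤ M)
    (c t i : ℕ) : bnum (replicate i (up M (c • A - t • κ))) =
      (t : ℤ) ^ i * bnum (replicate i (up M (-κ))) := by
  rw [bnum_rep_lin' (lin_up_anti hA hM c t), bnum_pow_nsmul]

/-- `-K` is nef and big on the fibres of every fibration over the base -/
theorem nef_up (Y : MFS b) {M : IntermediateField ℂ K} (hM : cf Y.A ≤ M) : Nef (up M (-Y.κ)) := by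
  obtain ⟨q, l, hq, h⟩ := Y.anti
  exact Nef.of_nsmul hq
    ((lin_up_anti Y.A_free hM l q).symm.free ((isMod_anti Y h).free.up M)).nef

theorem dim_pos (Y : MFS b) : 0 < dim (cf Y.A) K := dim_cf_pos Y.A_free Y.nb

/-- the volume bound for Mori fibre spaces of relative dimension at least two -/
def VolM (n C : ℕ) : Prop := ∀ (K : Type) [Field K] [Algebra ℂ K] [Algebra.EssFiniteType ℂ K]
  (b : Module.Basis (Fin n) K Ω[K⁄ℂ]) (Y : MFS b), 2 ≤ dim (cf Y.A) K →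
    ∃ M : IntermediateField ℂ K, cf Y.A ≤ M ∧ (∀ x, IsAlgebraic M x → x ∈ M) ∧ 2 ≤ dim M K ∧
      bnum (replicate (dim M K) (up M (-Y.κ))) ≤ ((C * Y.r : ℕ) : ℤ) ^ dim M K

/-- the volume bound in the form of helper12 -/
def Vol12 (n C : ℕ) : Prop := ∀ (F : Type) [Field F] [Algebra ℂ F] [Algebra.EssFiniteType ℂ F]
  (b : Module.Basis (Fin n) F Ω[F⁄ℂ]) (P₀ : PModel ℂ F) (L A : BD ℂ F), L ∈ On P₀ → A ∈ On P₀ →
    L.Free → A.Free → Big L → ∀ r : ℕ, 0 < r → ∀ σ : F, σ ≠ 0 → σ ∈ (r • kP P₀ b + L).Sec →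
    (∀ f ∈ (up (cf A) (r • kP P₀ b + L)).Sec, f / σ ∈ cf A) → 2 ≤ dim (cf A) F →
    ∃ M : IntermediateField ℂ F, cf A ≤ M ∧ Gj.Reg M F ∧ 2 ≤ dim M F ∧
      bnum (replicate (dim M F) (up M L)) ≤ ((C * r : ℕ) : ℤ) ^ dim M F

/-- the data of the volume bound on a smooth model -/
theorem exists_data (Y : MFS b) {q l : ℕ} : ∃ (P : PModel ℂ K) (σ : K),
    l • Y.A - q • Y.κ ∈ On P ∧ Y.A ∈ On P ∧ Y.H ∈ On P ∧ Y.κ ∈ On P ∧ σ ≠ 0 ∧
    σ ∈ ((q * Y.r) • kP P b + (l • Y.A - q • Y.κ)).Sec ∧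
    ∀ f ∈ (up (cf Y.A) ((q * Y.r) • kP P b + (l • Y.A - q • Y.κ))).Sec, f / σ ∈ cf Y.A := by
  classical
  obtain ⟨P, hP⟩ := Unf.exists_on (F := K) {Y.A, Y.H, Y.κ}
  have hA := hP Y.A (by simp)
  have hH := hP Y.H (by simp)
  have hκ := hP Y.κ (by simp)
  obtain ⟨σ, h1, h0⟩ := (Y.A_free.nsmul l).eff
  have e : (q * Y.r) • kP P b + (l • Y.A - q • Y.κ) = q • (Y.r • kP P b - Y.κ) + l • Y.A := by
    rw [mul_smul, smul_sub]
    abel
  refine ⟨P, σ, sub_mem (nsmul_mem hA l) (nsmul_mem hκ q), hA, hH, hκ, h0, ?_, fun f hf => ?_⟩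
  · rw [e]
    exact Sec_mono (le_add_of_nonneg_left (nsmul_nonneg (sub_nonneg.2 (le_kP Y.toTM hκ)) q)) h1
  · rw [e] at hf
    refine rig Y.mod Y.A_free Y.A_car ?_ ((car_self Y.A_free).nsmul l) h1 hf
    simpa using (leOn_sub.2 (eqOn_kP Y.toTM hH).ge).nsmul q

theorem volM_of_12 {C : ℕ} (h : Vol12 n C) : VolM n C := fun K _ _ _ b Y hd => by
  obtain ⟨q, l, hq, h1⟩ := Y.anti
  obtain ⟨P, σ, h2, h3, -, -, h4, h5, h6⟩ := exists_data Y (q := q) (l := l)
  obtain ⟨M, h7, h8, h9, h10⟩ := h K b P _ _ h2 h3 (isMod_anti Y h1).free Y.A_free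
    (isMod_anti Y h1).big _ (mul_pos hq Y.r_pos) σ h4 h5 h6 hd
  refine ⟨M, h7, (Slope.ac_iff M).1 (Slope.ac_of_reg h8), h9, ?_⟩
  rw [bnum_up_anti Y.A_free h7, show ((C * (q * Y.r) : ℕ) : ℤ) = q * (C * Y.r : ℕ) by
    push_cast; ring, mul_pow] at h10
  exact le_of_mul_le_mul_left h10 (pow_pos (by exact_mod_cast hq) _)

end Crest.Agent.X262.Gfm
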