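import Crest.Agent.X262.Gfm18.Vol
import Crest.Agent.X262.Vol77.Defs

/-!
# Row 262, GFM (helper18), part 4: the algebraic volume bound implies the volume statement
-/

set_option autoImplicit false

open scoped KaehlerDifferential

noncomputable section

namespace Crest.Agent.X262.Gfm

open Module Crest.Agent.X277 Crest.Agent.X277.BD Crest.Agent.X277.Pst

theorem CF.toIn {E F : Type} [Field E] [Field F] [Algebra E F] {m : ℕ}
    {b : Basis (Fin m) F Ω[F⁄E]} {H : BD E F} {r : ℕ} {u : F} (h : CF b H r u) : Vol77.In H r where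
  mod := h.mod
  reg := h.reg
  pos := h.r_pos
  can := ⟨m, b, u, h.u_ne, fun V hV g hg => ⟨by
    by_cases h1 : Prm H V
    exacts [(h.kv_eq V h1 g hg).ge, (h.kv_lt V hV h1 g hg).le],
    fun h1 => (h.kv_eq V h1 g hg).symm⟩⟩
  rho a := by
    obtain ⟨m, h1, c, f, h2, h3⟩ := h.rho a
    exact ⟨m, c, f, h1, h2, h3⟩

theorem volS_of_77 {n : ℕ} (h : Vol77.Vol (n + 1)) : VolS (n + 1) := by
  obtain ⟨C, h⟩ := h
  exact volS_of_cf (C := C) fun E F _ _ _ _ _ m b H r u h1 h2 h3 => h h1.toIn h2 h3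

end Crest.Agent.X262.Gfm
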