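import Crest.Agent.X262.Gfm18.Mfs
import Crest.Agent.X262.Wr72.Val

/-!
# Row 262, GFM (helper18), part 2: the canonical class on the generic fibre

* `kv_reindex`, `fAt_tow`, `kv_tow`, `exists_kv_up` : the canonical value of a horizontal
  valuation is the same over the ground field and over the base field;
* `kv_kP`, `exists_prm_oP`, `kv_eq`, `kv_lt` : the fields of `TM` in terms of `Kv`;
* `CF b H κ r` : canonical `ℚ`-factorial Fano model of Picard number one over any ground field;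
* `exists_cf`  : the generic fibre of a Mori fibre space is such a model.
-/

set_option autoImplicit false
set_option linter.unusedSectionVars false

open scoped KaehlerDifferential

noncomputable section

namespace Crest.Agent.X262.Gfm

open Module Crest.Agent.X277 Crest.Agent.X277.Lef Crest.Agent.X277.BD Crest.Agent.X277.Pst
open Crest.Agent.X277.Jet Crest.Agent.X262.Wr72
open Crest.Agent.R276 Crest.Agent.R276.FKDefs_779 Crest.Agent.R276.DivVal_858
open Crest.Agent.X277.BD.Br (On oP kP)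
open Crest.Agent.X262.Mod Crest.Agent.X262.Loc Crest.Agent.X262.Sark
open Crest.Agent.X262.FG.Prm5 (isMod_oP car_of_on isPD_of_prm)
open List (replicate)

section Tower

variable {E M K ι κ Γ : Type*} [Field E] [Field M] [Field K] [Algebra E K] [Algebra E M]
  [Algebra M K] [IsScalarTower E M K] [Fintype ι] [DecidableEq ι] [Fintype κ] [DecidableEq κ]
  [LinearOrderedCommGroupWithZero Γ] {v : Valuation K Γ} {g : Γ}

theorem jb_reindex (b : Basis ι K Ω[K⁄E]) (e : ι ≃ κ) (z : κ → K) :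
    jb (b.reindex e) z = jb b (z ∘ e) := b.det_reindex _ e

theorem kv_reindex {b : Basis ι K Ω[K⁄E]} (e : ι ≃ κ) : Kv v (b.reindex e) g ↔ Kv v b g := by
  refine and_congr ⟨?_, ?_⟩ ⟨fun h z hz => ?_, fun h z hz => ?_⟩
  · rintro ⟨z, h1, h2⟩
    exact ⟨z ∘ e, fun i => h1 _, by rwa [← jb_reindex]⟩
  · rintro ⟨z, h1, h2⟩
    exact ⟨z ∘ e.symm, fun i => h1 _, by
      rwa [jb_reindex, Function.comp_assoc, e.symm_comp_self, Function.comp_id]⟩
  · have h1 := h (z ∘ e.symm) fun i => hz _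
    rwa [jb_reindex, Function.comp_assoc, e.symm_comp_self, Function.comp_id] at h1
  · rw [jb_reindex]
    exact h _ fun i => hz _

theorem resInd_sum {R : ValuationSubring K} (hM : ∀ c : M, algebraMap M K c ∈ R) {α β : Type*}
    {x : α → K} (hx : ResInd M R x) {y : β → M} (hy : AlgebraicIndependent E y) :
    ResInd E R (Sum.elim x (algebraMap M K ∘ y)) := by
  refine ⟨fun i => i.rec hx.1 fun j => hM _, fun P hP => ?_⟩
  have h1 : ∀ P : MvPolynomial (α ⊕ β) E,
      MvPolynomial.aeval (Sum.elim x (algebraMap M K ∘ y)) P = MvPolynomial.aeval x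
        (MvPolynomial.map (MvPolynomial.aeval y : MvPolynomial β E →ₐ[E] M).toRingHom
          (MvPolynomial.sumAlgEquiv E α β P)) := fun P => by
    induction P using MvPolynomial.induction_on with
    | C c => simp [← IsScalarTower.algebraMap_apply]
    | add p q hp hq => simp only [map_add, hp, hq]
    | mul_X p i hp =>
      simp only [map_mul, hp]
      rcases i with i | i <;> simp
  rw [h1]
  refine hx.2 _ ((map_ne_zero_iff _ (MvPolynomial.map_injective _ ?_)).2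
    ((map_ne_zero_iff _ (MvPolynomial.sumAlgEquiv E α β).injective).2 hP))
  exact hy

variable [CharZero E] [Algebra.EssFiniteType E K] {m : ℕ}

/-- a regular frame with a uniformiser stays regular after adding coordinates of the base -/
theorem fAt_tow {X : Fr E K (κ ⊕ ι)} {Z : Fr M K κ} {Y : Fr E M ι} (h : Tow X Z Y)
    (hM : ∀ c : M, v (algebraMap M K c) ≤ 1) (hZ : ∀ i, v (Z.y i) ≤ 1) {i₀ : κ}
    (h1 : IsUnif v.valuationSubring (Z.y i₀))
    (h2 : ResInd M v.valuationSubring fun i : {i // i ≠ i₀} => Z.y i) : FAt v X := by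
  have h3 := resInd_sum (E := E) hM h2 Y.ai
  let e := (Fintype.equivFin ({i // i ≠ i₀} ⊕ ι)).symm
  have hn : Algebra.trdeg E K = (Fintype.card ({i // i ≠ i₀} ⊕ ι) + 1 : ℕ) := by
    have := X.finite
    have h4 : 0 < Fintype.card κ := Fintype.card_pos_iff.2 ⟨i₀⟩
    rw [trdeg_eq, ← X.card_eq]
    simp only [Fintype.card_sum, Fintype.card_subtype_compl, Fintype.card_unique, ne_eq]
    congr 1
    omega
  have hk : Cns.KV E v.valuationSubring := fun c => by
    rw [IsScalarTower.algebraMap_apply E M K]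
    exact hM _
  obtain ⟨U, hU, h5⟩ := at_of_unif hn hk (h3.comp e e.injective) h1
  have h6 : FAt v U := ⟨h5.1, h5.2⟩
  have h7 : ∀ i, ∃ c, U.y i = X.y c := fun i => by
    rw [hU]
    refine Fin.cases ⟨.inl i₀, (h.yl i₀).symm⟩ (fun i => ?_) i
    rw [Fin.cons_succ, Function.comp_apply]
    rcases e i with i | j
    exacts [⟨.inl i, (h.yl i).symm⟩, ⟨.inr j, (h.yr j).symm⟩]
  refine ⟨fun i => ?_, fun a x hx => h6.v_der _ (fun i => ?_) hx⟩
  · rcases i with i | j
    · rw [h.yl]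
      exact hZ i
    · rw [h.yr]
      exact hM _
  · obtain ⟨c, hc⟩ := h7 i
    rw [hc, X.dual]
    split_ifs <;> simp

/-- the canonical value of a horizontal divisorial valuation -/
theorem kv_tow {X : Fr E K (Fin m ⊕ ι)} {Z : Fr M K (Fin m)} {Y : Fr E M ι} (h : Tow X Z Y)
    (hv : IsDiv M m v.valuationSubring) : Kv v X.basis g ↔ Kv v Z.basis g := by
  have : CharZero M := charZero_of_injective_algebraMap (algebraMap E M).injective
  have : Algebra.EssFiniteType M K := .of_comp E M K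
  obtain ⟨Z', h1, i₀, h2, h3⟩ := exists_fAt Z hv
  obtain ⟨X', h4⟩ := exists_tower Z' Y
  have h5 := (fAt_tow h4 hv.alg h1.1 h2 h3).kv X
  have h6 : X'.y = Sum.elim Z'.y fun j => algebraMap M K (Y.y j) :=
    funext fun i => i.rec h4.yl h4.yr
  rw [h6, h.jc, Y.jc_self, map_one, mul_one] at h5
  exact ⟨fun h7 => h7.unique h5 ▸ h1.kv Z, fun h7 => h7.unique (h1.kv Z) ▸ h5⟩

/-- comparison of the canonical values over `E` and over `M` -/
theorem exists_kv_up (b : Basis ι K Ω[K⁄E]) (b' : Basis (Fin m) K Ω[K⁄M])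
    [Algebra.EssFiniteType E M] : ∃ u : K, u ≠ 0 ∧ ∀ {Γ : Type _} [LinearOrderedCommGroupWithZero Γ]
      (v : Valuation K Γ) (g : Γ), IsDiv M m v.valuationSubring → Kv v b' g → Kv v b (v u * g) := by
  have : CharZero M := charZero_of_injective_algebraMap (algebraMap E M).injective
  have : Algebra.EssFiniteType M K := .of_comp E M K
  obtain ⟨Y⟩ := exists_fr (E := E) (K := M)
  obtain ⟨Z⟩ := exists_fr (E := M) (K := K)
  obtain rfl : m = finrank K Ω[K⁄M] := by simpa using (finrank_eq_card_basis b').symm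
  obtain ⟨X, h⟩ := exists_tower Z Y
  let e := b.indexEquiv X.basis
  refine ⟨(b.reindex e).det X.basis * Z.basis.det b',
    mul_ne_zero ((b.reindex e).isUnit_det _).ne_zero (Z.basis.isUnit_det _).ne_zero,
    fun v g hv hg => (kv_reindex e).1 ?_⟩
  rw [map_mul, mul_assoc]
  exact ((kv_tow h hv).2 (hg.change Z.basis)).change _

end Tower

variable {K : Type} [Field K] [Algebra ℂ K] [Algebra.EssFiniteType ℂ K] {n : ℕ}
  {b : Basis (Fin n) K Ω[K⁄ℂ]} {V : RZ ℂ K}

/-- the canonical divisor of a smooth model has the canonical value at its primes -/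
theorem kv_kP {W : PModel ℂ K} (hV : Prm (oP W) V) : Kv V.v b ((kP W b).val V) := by
  have hv := isPD_of_prm hV
  obtain ⟨x, hx⟩ := hv.exists_on
  obtain ⟨t, ht⟩ := AN.G1.exists_crd b x
  have h1 : (kP W b).val V = V.v (jac ℂ b t) :=
    (Br.at_kP b ht V fun f hf => (Geo.nv_le_one hV.dvs).1 (hx f hf)).symm
  refine ⟨⟨t, fun l => RZ.le_one_iff.2 ((Geo.nv_le_one hV.dvs).1 (hx _ (ht.mem l))),
    by rw [jb_eq_jac, h1]⟩, fun z hz => ?_⟩
  rw [jb_eq_jac, h1, ← Geo.nv_le_iff hV.dvs]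
  exact Res.Log.v_jac_le_of_loc b (hv.loc_lp hx) ht fun l =>
    (Geo.nv_le_one hV.dvs).2 (RZ.le_one_iff.1 (hz l))

theorem exists_prm_oP (hV : Dvs V) (T : Finset (BD ℂ K)) :
    ∃ W : PModel ℂ K, Prm (oP W) V ∧ ∀ a ∈ T, a ∈ On W := by
  classical
  obtain ⟨c, -, h⟩ := Geo.exists_prm hV
  obtain ⟨W, hW⟩ := Unf.exists_on (insert c T)
  exact ⟨W, (car_of_on (hW c (by simp))).prm h, fun a ha => hW a (by simp [ha])⟩

theorem kv_eq (Y : TM b) (hV : Prm Y.H V) {g : V.1.ValueGroup} (h : Kv V.v b g) :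
    Y.κ.val V = g ^ Y.r := by
  obtain ⟨W, hW, -⟩ := exists_prm_oP hV.dvs ∅
  rw [Y.κ_eq W V hW hV, val_nsmul, h.unique (kv_kP hW)]

theorem kv_lt (Y : TM b) (hV : Dvs V) (hn : ¬ Prm Y.H V) {g : V.1.ValueGroup} (h : Kv V.v b g) :
    Y.κ.val V < g ^ Y.r := by
  obtain ⟨W, hW, -⟩ := exists_prm_oP hV ∅
  have h1 := Y.κ_lt W V hW hn
  rwa [val_nsmul, ← h.unique (kv_kP hW)] at h1

theorem kv_le (Y : TM b) (hV : Dvs V) {g : V.1.ValueGroup} (h : Kv V.v b g) :
    Y.κ.val V ≤ g ^ Y.r := by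
  by_cases h1 : Prm Y.H V
  exacts [(kv_eq Y h1 h).le, (kv_lt Y hV h1 h).le]

/-- a terminal `ℚ`-factorial Fano model of Picard number one over a ground field `E`:
`H = -r K` is the polarisation, `K` being read in the basis `b` and `H` up to the function `u` -/
structure CF {E F : Type} [Field E] [Field F] [Algebra E F] {m : ℕ} (b : Basis (Fin m) F Ω[F⁄E])
    (H : BD E F) (r : ℕ) (u : F) : Prop where
  reg : Gj.Reg E F
  mod : IsMod H
  r_pos : 0 < r
  u_ne : u ≠ 0
  kv_eq : ∀ V : RZ E F, Prm H V → ∀ g, Kv V.v b g → g ^ r * H.val V = V.v u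
  kv_lt : ∀ V : RZ E F, Dvs V → ¬ Prm H V → ∀ g, Kv V.v b g → V.v u < g ^ r * H.val V
  qf : ∀ a : BD E F, ∃ m : ℕ, 0 < m ∧ ∃ a', Car H a' ∧ EqOn H a' (m • a)
  rho : ∀ a : BD E F, ∃ m : ℕ, 0 < m ∧ ∃ (c : ℤ) (f : F), f ≠ 0 ∧
    EqOn H (m • a) (c • H + pr E f)

/-- **the generic fibre of a Mori fibre space** -/
theorem exists_cf (Y : MFS b) {q l : ℕ} (hq : 0 < q) (h : (l • Y.A - q • Y.κ - Y.H).Free) {m : ℕ}
    (b' : Basis (Fin m) K Ω[K⁄(cf Y.A)]) :
    ∃ u, CF b' (up (cf Y.A) (l • Y.A - q • Y.κ)) (q * Y.r) u := by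
  obtain ⟨u, hu, h1⟩ := exists_kv_up b b'
  obtain ⟨s, hs, h2⟩ := lin_up_of_free (Y.A_free.nsmul l)
    (cf_le_of_car Y.A_free ((car_self Y.A_free).nsmul l))
  have hm : Gj.dm (cf Y.A) K = m := by
    have h3 := trdeg_eq (E := cf Y.A) (K := K)
    rw [finrank_eq_card_basis b', Fintype.card_fin, trdeg_eq_dim] at h3
    exact_mod_cast h3
  have hN := isMod_anti Y h
  have hc : Car (l • Y.A - q • Y.κ) Y.A := (car_anti' Y h).trans hN.free Y.A_car
  have h4 : ∀ (V : RZ (cf Y.A) K), Dvs V → ∀ g, Kv V.v b' g → Kv (V.dn ℂ).v b (V.v u * g) :=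
    fun V hV g hg => h1 V.v g (by
      rw [show V.v.valuationSubring = V.1 from V.1.valuationSubring_valuation, ← hm]
      exact hV) hg
  have h5 : ∀ V : RZ (cf Y.A) K, (up (cf Y.A) (l • Y.A - q • Y.κ)).val V =
      V.v s / (up (cf Y.A) Y.κ).val V ^ q := fun V => by
    rw [map_sub, h2, zero_add, val_sub, val_pr hs, map_nsmul, val_nsmul]
  have h6 : ∀ V : RZ (cf Y.A) K, Prm (up (cf Y.A) (l • Y.A - q • Y.κ)) V ↔ Prm Y.H (V.dn ℂ) :=
    fun V => (prm_up_iff hN.free Y.A_free hc V).trans (prm_anti Y h _)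
  have h7 : ∀ a : BD ℂ K, ∃ m : ℕ, 0 < m ∧ ∃ a', Car (l • Y.A - q • Y.κ) a' ∧
      EqOn (l • Y.A - q • Y.κ) a' (m • a) := fun a => by
    obtain ⟨m, hm, a', h8, h9⟩ := Y.qf a
    exact ⟨m, hm, a', (car_anti' Y h).trans hN.free h8, fun V hV => h9 V ((prm_anti Y h V).1 hV)⟩
  have hu' : ∀ V : RZ (cf Y.A) K, V.v u ≠ 0 := fun V => RZ.ne_zero_iff.2 hu
  refine ⟨s / u ^ (q * Y.r), reg_cf _, isMod_up _ hN, mul_pos hq Y.r_pos,
    div_ne_zero hs (pow_ne_zero _ hu), fun V hV g hg => ?_, fun V hV hn g hg => ?_,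
    qf_up hN.free Y.A_free hc h7, fun a => ?_⟩
  · have h8 : (up (cf Y.A) Y.κ).val V = (V.v u * g) ^ Y.r :=
      (val_up _ _).trans (kv_eq Y.toTM ((h6 V).1 hV) (h4 V hV.dvs g hg))
    have h9 : g ≠ 0 := fun h0 => (up (cf Y.A) Y.κ).val_ne V (by
      rw [h8, h0, mul_zero, zero_pow Y.r_pos.ne'])
    rw [h5, h8, map_div₀, map_pow, ← pow_mul, mul_comm Y.r, mul_pow]
    field_simp
  · have h8 : (up (cf Y.A) Y.κ).val V < (V.v u * g) ^ Y.r := (val_up _ _).trans_lt
      (kv_lt Y.toTM (dvs_dn.2 hV) (fun h9 => hn ((h6 V).2 h9)) (h4 V hV g hg))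
    have h9 := pow_lt_pow_left₀ h8 zero_le hq.ne'
    rw [← pow_mul, mul_comm Y.r, mul_pow] at h9
    rw [h5, map_div₀, map_pow, mul_div_assoc', div_lt_div_iff₀ (pow_pos (RZ.pos hu) _)
      (pow_pos (val_pos _ _) _), mul_comm (g ^ _), mul_assoc, mul_comm (g ^ _)]
    exact mul_lt_mul_of_pos_left h9 (RZ.pos hs)
  · obtain ⟨m, hm, c, f, hf, h8⟩ := rho_up Y.mod.free Y.A_free Y.A_car Y.qf Y.rho a
    refine ⟨q * m, mul_pos hq hm, -c, f ^ q * s ^ c,
      mul_ne_zero (pow_ne_zero _ hf) (zpow_ne_zero _ hs), fun V hV => ?_⟩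
    have h9 := (h8.nsmul q) V ((prm_up_iff Y.mod.free Y.A_free Y.A_car V).2 ((h6 V).1 hV))
    rw [mul_smul, h9]
    congr 1
    rw [pr_mul (pow_ne_zero _ hf) (zpow_ne_zero _ hs), pr_pow hf, pr_zpow hs, map_sub, h2,
      map_nsmul]
    module

end Crest.Agent.X262.Gfm
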