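import Crest.Agent.X262.Gfm18.Can
import Crest.Agent.X262.Loc95.CanS

/-!
# Row 262, GFM (helper18), part 3: the volume statement for Mori fibre spaces

* `VolCF n C`, `volM_of_cf` : the bound over an arbitrary ground field implies `VolM`;
* `VolS n`, `volS_of_volM`  : the statement with relative dimension one included.
-/

set_option autoImplicit false
set_option linter.unusedSectionVars false

open scoped KaehlerDifferential

noncomputable section

namespace Crest.Agent.X262.Gfm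

open Module Crest.Agent.X277 Crest.Agent.X277.Lef Crest.Agent.X277.BD Crest.Agent.X277.Pst
open Crest.Agent.X277.Jet
open Crest.Agent.X262.Mod Crest.Agent.X262.Loc Crest.Agent.X262.Sark
open List (replicate)

/-- the volume bound over an arbitrary ground field -/
def VolCF (n C : ℕ) : Prop := ∀ (E F : Type) [Field E] [Field F] [Algebra E F] [CharZero E]
  [Algebra.EssFiniteType E F] (m : ℕ) (b : Basis (Fin m) F Ω[F⁄E]) (H : BD E F) (r : ℕ) (u : F),
    CF b H r u → 2 ≤ dim E F → dim E F ≤ n →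
    ∃ M : IntermediateField E F, Gj.Reg M F ∧ 2 ≤ dim M F ∧
      bnum (replicate (dim M F) (up M H)) ≤ ((C * r : ℕ) : ℤ) ^ dim M F

variable {n C : ℕ}

theorem dim_eq_of_basis {E F : Type} [Field E] [Field F] [Algebra E F] [CharZero E]
    [Algebra.EssFiniteType E F] (b : Basis (Fin n) F Ω[F⁄E]) : dim E F = n := by
  have h3 := trdeg_eq (E := E) (K := F)
  rw [finrank_eq_card_basis b, Fintype.card_fin, trdeg_eq_dim] at h3
  exact_mod_cast h3

theorem volM_of_cf (h : VolCF n C) : VolM n C := fun K _ _ _ b Y hd => by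
  obtain ⟨q, l, hq, h1⟩ := Y.anti
  obtain ⟨Z⟩ := exists_fr (E := cf Y.A) (K := K)
  obtain ⟨u, h2⟩ := exists_cf Y hq h1 Z.basis
  obtain ⟨M, h3, h4, h5⟩ := h _ K _ _ _ _ u h2 hd (by
    have h3 := dim_eq_of_basis b
    have h4 := dim_cf_add Y.A
    omega)
  have h6 : cf Y.A ≤ M.restrictScalars ℂ := fun x hx => M.algebraMap_mem ⟨x, hx⟩
  have h7 : bnum (replicate (dim (M.restrictScalars ℂ) K)
      (up (M.restrictScalars ℂ) (l • Y.A - q • Y.κ))) ≤
      ((C * (q * Y.r) : ℕ) : ℤ) ^ dim (M.restrictScalars ℂ) K := by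
    have e : up (M.restrictScalars ℂ) (l • Y.A - q • Y.κ) =
        up M (up (cf Y.A) (l • Y.A - q • Y.κ)) := (mp_mp (fun _ => rfl) _).symm
    rw [e]
    exact h5
  refine ⟨M.restrictScalars ℂ, h6, (Slope.ac_iff M).1 (Slope.ac_of_reg h3), h4, ?_⟩
  rw [bnum_up_anti Y.A_free h6, show ((C * (q * Y.r) : ℕ) : ℤ) = q * (C * Y.r : ℕ) by
    push_cast; ring, mul_pow] at h7
  exact le_of_mul_le_mul_left h7 (pow_pos (by exact_mod_cast hq) _)

/-- the volume statement of the layer BND, in dimension `n` -/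
def VolS (n : ℕ) : Prop := ∃ C : ℕ, ∀ (K : Type) [Field K] [Algebra ℂ K]
  [Algebra.EssFiniteType ℂ K] (b : Basis (Fin n) K Ω[K⁄ℂ]) (Y : MFS b),
    ∃ M : IntermediateField ℂ K, cf Y.A ≤ M ∧ (∀ x, IsAlgebraic M x → x ∈ M) ∧
      min 2 (dim (cf Y.A) K) ≤ dim M K ∧
      bnum (replicate (dim M K) (up M (-Y.κ))) ≤ ((C * Y.r : ℕ) : ℤ) ^ dim M K

theorem volS_of_volM (h : VolM (n + 1) C) : VolS (n + 1) := by
  refine ⟨max C 2, fun K _ _ _ b Y => ?_⟩
  by_cases hd : 2 ≤ dim (cf Y.A) K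
  · obtain ⟨M, h1, h2, h3, h4⟩ := h K b Y hd
    refine ⟨M, h1, h2, (min_le_left _ _).trans h3, h4.trans (pow_le_pow_left₀ (by positivity) ?_ _)⟩
    exact_mod_cast Nat.mul_le_mul_right _ (le_max_left _ _)
  · have h1 : dim (cf Y.A) K = 1 := by
      have := dim_pos Y
      omega
    refine ⟨cf Y.A, le_rfl, fun _ => cf_cl, min_le_right _ _, ?_⟩
    rw [h1, List.replicate_one, map_neg, bnum_neg, MFS.deg_κ Y h1, pow_one, neg_mul, neg_neg]
    exact_mod_cast Nat.mul_le_mul_right _ (le_max_right C 2)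

theorem volS_of_12 (h : Vol12 (n + 1) C) : VolS (n + 1) := volS_of_volM (volM_of_12 h)

theorem volS_of_cf (h : VolCF (n + 1) C) : VolS (n + 1) := volS_of_volM (volM_of_cf h)

end Crest.Agent.X262.Gfm
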